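import Vale.Agent.P193.Words
import Mathlib.GroupTheory.FreeGroup.Reduce
import Mathlib.GroupTheory.PresentedGroup
import Mathlib.Computability.RE
import Mathlib.Computability.PartrecCode

/-!
P193: recursively enumerable predicates (closure properties), free group equality of words, r.e. presentations,
and the fixed point.
-/

namespace Vale.P193.RE

open Encodable Computable
open Nat.Partrec (Code)

section Combinators

variable {α β : Type*} [Primcodable α] [Primcodable β]

/-- An r.e. predicate has a monotone primitive recursive stage function. -/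
theorem exists_stage {p : α → Prop} (hp : REPred p) :
    ∃ f : α → ℕ → Bool, Primrec₂ f ∧ (∀ a k l, k ≤ l → f a k = true → f a l = true) ∧
      ∀ a, p a ↔ ∃ k, f a k = true := by
  obtain ⟨c, hc⟩ := Code.exists_code.1 hp
  refine ⟨fun a k => (Code.evaln k c (encode a)).isSome, ?_, ?_, ?_⟩
  · exact Primrec.option_isSome.comp (Code.primrec_evaln.comp
      ((Primrec.snd.pair (Primrec.const c)).pair (Primrec.encode.comp Primrec.fst)))
  · intro a k l hkl h
    obtain ⟨x, hx⟩ := Option.isSome_iff_exists.1 h
    exact Option.isSome_iff_exists.2 ⟨x, Code.evaln_mono hkl hx⟩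
  · intro a
    have h : p a ↔ (Code.eval c (encode a)).Dom := by simp [hc, Part.assert]
    rw [h]
    constructor
    · intro hd
      obtain ⟨k, hk⟩ := Code.evaln_complete.1 (Part.get_mem hd)
      exact ⟨k, Option.isSome_iff_exists.2 ⟨_, hk⟩⟩
    · rintro ⟨k, hk⟩
      obtain ⟨x, hx⟩ := Option.isSome_iff_exists.1 hk
      exact Part.dom_iff_mem.2 ⟨x, Code.evaln_sound hx⟩

/-- A computable stage function gives an r.e. predicate. -/
theorem of_stage {p : α → Prop} (f : α → ℕ → Bool) (hf : Computable₂ f)
    (h : ∀ a, p a ↔ ∃ k, f a k = true) : REPred p := by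
  have := (Partrec.rfind (p := fun a k => Part.some (f a k)) hf.partrec₂).dom_re
  refine this.of_eq fun a => ?_
  rw [h a]
  refine Nat.rfind_dom.trans ⟨?_, ?_⟩
  · rintro ⟨k, hk, -⟩
    exact ⟨k, (Part.mem_some_iff.1 hk).symm⟩
  · rintro ⟨k, hk⟩
    exact ⟨k, Part.mem_some_iff.2 hk.symm, fun _ => trivial⟩

theorem comp {p : β → Prop} (hp : REPred p) {g : α → β} (hg : Computable g) : REPred fun a => p (g a) :=
  Partrec.comp hp hg

theorem of_computable {p : α → Prop} [DecidablePred p] (h : Computable fun a => decide (p a)) : REPred p :=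
  (Computable.computablePred h).to_re

theorem of_primrec {p : α → Prop} (h : PrimrecPred p) : REPred p :=
  h.computablePred.to_re

theorem const (P : Prop) : REPred fun _ : α => P := by
  classical exact of_computable (Computable.const (decide P))

theorem eq [DecidableEq β] {f g : α → β} (hf : Computable f) (hg : Computable g) : REPred fun a => f a = g a := by
  exact comp (p := fun q : β × β => q.1 = q.2)
    (of_primrec ((Primrec.eq (α := β)).comp Primrec.fst Primrec.snd)) (hf.pair hg)

theorem and {p q : α → Prop} (hp : REPred p) (hq : REPred q) : REPred fun a => p a ∧ q a := by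
  obtain ⟨f, hf, hfm, hfp⟩ := exists_stage hp
  obtain ⟨g, hg, hgm, hgq⟩ := exists_stage hq
  refine of_stage (fun a k => f a k && g a k) (Primrec.and.comp₂ hf hg).to_comp fun a => ?_
  rw [hfp, hgq]
  constructor
  · rintro ⟨⟨i, hi⟩, ⟨j, hj⟩⟩
    exact ⟨max i j, by simp [hfm a i _ (le_max_left i j) hi, hgm a j _ (le_max_right i j) hj]⟩
  · rintro ⟨k, hk⟩
    simp only [Bool.and_eq_true] at hk
    exact ⟨⟨k, hk.1⟩, ⟨k, hk.2⟩⟩

theorem or {p q : α → Prop} (hp : REPred p) (hq : REPred q) : REPred fun a => p a ∨ q a := by
  obtain ⟨f, hf, -, hfp⟩ := exists_stage hp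
  obtain ⟨g, hg, -, hgq⟩ := exists_stage hq
  refine of_stage (fun a k => f a k || g a k) (Primrec.or.comp₂ hf hg).to_comp fun a => ?_
  rw [hfp, hgq, ← exists_or]
  simp only [Bool.or_eq_true]

/-- Existential quantifier over a coded type. -/
theorem exists_ {p : α → β → Prop} (hp : REPred fun x : α × β => p x.1 x.2) :
    REPred fun a => ∃ b, p a b := by
  obtain ⟨f, hf, -, hfp⟩ := exists_stage hp
  refine of_stage (fun a k => ((decode (α := β) k.unpair.1).map fun b => f (a, b) k.unpair.2).getD false) ?_
    fun a => ?_
  · refine (Primrec.option_getD.comp (Primrec.option_map ?_ ?_) (Primrec.const false)).to_comp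
    · exact Primrec.decode.comp (Primrec.fst.comp (Primrec.unpair.comp Primrec.snd))
    · exact hf.comp ((Primrec.fst.comp Primrec.fst).pair Primrec.snd)
        (Primrec.snd.comp (Primrec.unpair.comp (Primrec.snd.comp Primrec.fst)))
  · constructor
    · rintro ⟨b, hb⟩
      obtain ⟨k, hk⟩ := (hfp (a, b)).1 hb
      exact ⟨Nat.pair (encode b) k, by simp [hk]⟩
    · rintro ⟨k, hk⟩
      cases hd : decode (α := β) k.unpair.1 with
      | none => simp [hd] at hk
      | some b => exact ⟨b, (hfp (a, b)).2 ⟨_, by simpa [hd] using hk⟩⟩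

/-- Universal quantifier over the members of a list. -/
theorem forall_mem {p : α → β → Prop} (hp : REPred fun x : α × β => p x.1 x.2)
    {l : α → List β} (hl : Computable l) : REPred fun a => ∀ b ∈ l a, p a b := by
  obtain ⟨f, hf, hfm, hfp⟩ := exists_stage hp
  have key : REPred fun x : α × List β => ∀ b ∈ x.2, p x.1 b := by
    refine of_stage (fun x k => x.2.foldr (fun b s => f (x.1, b) k && s) true) ?_ fun x => ?_
    · have hstep : Primrec₂ fun (y : (α × List β) × ℕ) (q : β × Bool) => f (y.1.1, q.1) y.2 && q.2 :=
        (Primrec.and.comp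
          (hf.comp ((Primrec.fst.comp (Primrec.fst.comp Primrec.fst)).pair (Primrec.fst.comp Primrec.snd))
            (Primrec.snd.comp Primrec.fst))
          (Primrec.snd.comp Primrec.snd)).to₂
      exact (Primrec.list_foldr (h := fun (y : (α × List β) × ℕ) (q : β × Bool) => f (y.1.1, q.1) y.2 && q.2)
        (Primrec.snd.comp Primrec.fst) (Primrec.const true) hstep).to_comp
    · obtain ⟨a, bs⟩ := x
      have hall : ∀ k (bs : List β), (bs.foldr (fun b s => f (a, b) k && s) true = true) ↔
          ∀ b ∈ bs, f (a, b) k = true := by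
        intro k bs; induction bs <;> simp [*]
      simp only [hall]
      constructor
      · intro h
        induction bs with
        | nil => exact ⟨0, by simp⟩
        | cons b bs ih =>
          obtain ⟨i, hi⟩ := (hfp (a, b)).1 (h b (by simp))
          obtain ⟨j, hj⟩ := ih fun c hc => h c (by simp [hc])
          exact ⟨max i j, by
            simp only [List.mem_cons, forall_eq_or_imp]
            exact ⟨hfm _ i _ (le_max_left i j) hi, fun c hc => hfm _ j _ (le_max_right i j) (hj c hc)⟩⟩
      · rintro ⟨k, hk⟩ b hb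
        exact (hfp (a, b)).2 ⟨k, hk b hb⟩
  exact comp key (Computable.id.pair hl)

/-- Existential quantifier over the members of a list. -/
theorem exists_mem [DecidableEq β] {p : α → β → Prop} (hp : REPred fun x : α × β => p x.1 x.2)
    {l : α → List β} (hl : Computable l) : REPred fun a => ∃ b ∈ l a, p a b := by
  refine exists_ (and ?_ hp)
  have hmem : PrimrecPred fun x : β × List β => x.1 ∈ x.2 := by
    have hfold : Primrec fun x : β × List β => x.2.foldr (fun b s => decide (x.1 = b) || s) false := by
      refine Primrec.list_foldr (h := fun (x : β × List β) (q : β × Bool) => decide (x.1 = q.1) || q.2)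
        Primrec.snd (Primrec.const false) ?_
      exact Primrec.or.comp ((Primrec.eq (α := β)).decide.comp (Primrec.fst.comp Primrec.fst)
        (Primrec.fst.comp Primrec.snd)) (Primrec.snd.comp Primrec.snd)
    refine PrimrecPred.of_eq (p := fun x : β × List β => x.2.foldr (fun b s => decide (x.1 = b) || s) false = true)
      ((Primrec.eq (α := Bool)).comp hfold (Primrec.const true)) fun x => ?_
    obtain ⟨a, l⟩ := x
    induction l <;> simp [*]
  exact comp (of_primrec hmem) (Computable.snd.pair (hl.comp Computable.fst))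

/-- Universal quantifier over a finite range. -/
theorem forall_fin {m : ℕ} {p : α → Fin m → Prop} (hp : REPred fun x : α × Fin m => p x.1 x.2) :
    REPred fun a => ∀ i, p a i :=
  (forall_mem hp (Computable.const (List.finRange m))).of_eq fun a => by simp

end Combinators

section Words

variable {α : Type} [Primcodable α] [DecidableEq α]

omit [DecidableEq α] in
theorem primrec_invRev : Primrec (FreeGroup.invRev : Wd α → Wd α) :=
  Primrec.list_reverse.comp (Primrec.list_map Primrec.id
    ((Primrec.fst.comp Primrec.snd).pair (Primrec.not.comp (Primrec.snd.comp Primrec.snd))))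

theorem primrec_reduce : Primrec (FreeGroup.reduce : Wd α → Wd α) := by
  let step : (α × Bool) → Wd α → Wd α := fun hd ih =>
    List.casesOn ih [hd] fun hd2 tl2 => if hd.1 = hd2.1 ∧ hd.2 = not hd2.2 then tl2 else hd :: hd2 :: tl2
  have hs : Primrec₂ fun (_ : Wd α) (q : (α × Bool) × Wd α) => step q.1 q.2 := by
    refine Primrec.list_casesOn (f := fun z : Wd α × (α × Bool) × Wd α => z.2.2)
      (g := fun z : Wd α × (α × Bool) × Wd α => [z.2.1])
      (h := fun (z : Wd α × (α × Bool) × Wd α) (r : (α × Bool) × List (α × Bool)) =>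
        if z.2.1.1 = r.1.1 ∧ z.2.1.2 = not r.1.2 then r.2 else z.2.1 :: r.1 :: r.2)
      (Primrec.snd.comp Primrec.snd)
      (Primrec.list_cons.comp (Primrec.fst.comp Primrec.snd) (Primrec.const [])) ?_
    refine Primrec.ite (PrimrecPred.and ?_ ?_) (Primrec.snd.comp Primrec.snd) ?_
    · exact (Primrec.eq (α := α)).comp (Primrec.fst.comp (Primrec.fst.comp (Primrec.snd.comp Primrec.fst)))
        (Primrec.fst.comp (Primrec.fst.comp Primrec.snd))
    · exact (Primrec.eq (α := Bool)).comp (Primrec.snd.comp (Primrec.fst.comp (Primrec.snd.comp Primrec.fst)))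
        (Primrec.not.comp (Primrec.snd.comp (Primrec.fst.comp Primrec.snd)))
    · exact Primrec.list_cons.comp (Primrec.fst.comp (Primrec.snd.comp Primrec.fst))
        (Primrec.list_cons.comp (Primrec.fst.comp Primrec.snd) (Primrec.snd.comp Primrec.snd))
  have h : Primrec fun w : Wd α => w.foldr step [] :=
    Primrec.list_foldr (h := fun (_ : Wd α) (q : (α × Bool) × Wd α) => step q.1 q.2)
      Primrec.id (Primrec.const []) hs
  refine h.of_eq fun w => ?_
  induction w with
  | nil => rfl
  | cons a w ih => rw [List.foldr_cons, ih, FreeGroup.reduce.cons]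

/-- Equality of words in the free group. -/
theorem primrec_mk_eq : PrimrecRel fun u v : Wd α => FreeGroup.mk u = FreeGroup.mk v :=
  PrimrecPred.of_eq ((Primrec.eq (α := Wd α)).comp (primrec_reduce.comp Primrec.fst) (primrec_reduce.comp Primrec.snd))
    fun _ => ⟨fun h => FreeGroup.reduce.exact h, fun h => FreeGroup.reduce.sound h⟩

/-- The relators given by a predicate on words. -/
def relSet (R : Wd α → Prop) : Set (FreeGroup α) := {x | ∃ w, R w ∧ FreeGroup.mk w = x}

/-- The word of a witness: a product of conjugates of relators and their inverses. -/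
def conjWord (l : List (Wd α × Wd α × Bool)) : Wd α :=
  l.flatMap fun q => q.1 ++ (bif q.2.2 then q.2.1 else FreeGroup.invRev q.2.1) ++ FreeGroup.invRev q.1

omit [Primcodable α] [DecidableEq α] in
theorem mem_normalClosure_iff (R : Wd α → Prop) (w : Wd α) :
    FreeGroup.mk w ∈ Subgroup.normalClosure (relSet R) ↔
      ∃ l : List (Wd α × Wd α × Bool), (∀ q ∈ l, R q.2.1) ∧ FreeGroup.mk (conjWord l) = FreeGroup.mk w := by
  have hval : ∀ q : Wd α × Wd α × Bool, FreeGroup.mk (conjWord [q]) = FreeGroup.mk q.1 *
      (bif q.2.2 then FreeGroup.mk q.2.1 else (FreeGroup.mk q.2.1)⁻¹) * (FreeGroup.mk q.1)⁻¹ := by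
    rintro ⟨u, r, _ | _⟩ <;> simp [conjWord, FreeGroup.inv_mk, FreeGroup.mul_mk, List.append_assoc]
  have happ : ∀ l l' : List (Wd α × Wd α × Bool),
      FreeGroup.mk (conjWord (l ++ l')) = FreeGroup.mk (conjWord l) * FreeGroup.mk (conjWord l') := by
    intro l l'; simp [conjWord, FreeGroup.mul_mk]
  constructor
  · intro h
    refine Subgroup.closure_induction (p := fun x _ => ∃ l : List (Wd α × Wd α × Bool),
        (∀ q ∈ l, R q.2.1) ∧ FreeGroup.mk (conjWord l) = x) ?_ ?_ ?_ ?_ h
    · intro x hx
      obtain ⟨a, ⟨r, hr, rfl⟩, hc⟩ := Group.mem_conjugatesOfSet_iff.1 hx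
      obtain ⟨c, rfl⟩ := isConj_iff.1 hc
      obtain ⟨u, rfl⟩ : ∃ u, FreeGroup.mk u = c := Quot.exists_rep c
      exact ⟨[(u, r, true)], by simpa using hr, by rw [hval]; rfl⟩
    · exact ⟨[], by simp, by simp [conjWord, FreeGroup.one_eq_mk]⟩
    · rintro x y - - ⟨l, hl, rfl⟩ ⟨l', hl', rfl⟩
      exact ⟨l ++ l', by
        intro q hq
        rcases List.mem_append.1 hq with h | h
        exacts [hl q h, hl' q h], happ l l'⟩
    · rintro x - ⟨l, hl, rfl⟩
      refine ⟨(l.map fun q => (q.1, q.2.1, !q.2.2)).reverse, ?_, ?_⟩
      · intro q hq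
        obtain ⟨q', hq', rfl⟩ := List.mem_map.1 (List.mem_reverse.1 hq)
        exact hl q' hq'
      · clear hl
        induction l with
        | nil => simp [conjWord, ← FreeGroup.one_eq_mk]
        | cons q l ih =>
          rw [List.map_cons, List.reverse_cons, happ, ih, hval, ← List.singleton_append (x := q), happ, hval,
            mul_inv_rev]
          obtain ⟨u, r, _ | _⟩ := q <;> simp
  · rintro ⟨l, hl, h⟩
    rw [← h]
    clear h
    induction l with
    | nil => simp [conjWord, ← FreeGroup.one_eq_mk]
    | cons q l ih =>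
      rw [← List.singleton_append (x := q), happ, hval]
      refine Subgroup.mul_mem _ (Subgroup.normalClosure_normal.conj_mem _ ?_ _) (ih fun p hp => hl p (by simp [hp]))
      have hr : FreeGroup.mk q.2.1 ∈ Subgroup.normalClosure (relSet R) :=
        Subgroup.subset_normalClosure ⟨_, hl q (by simp), rfl⟩
      cases q.2.2
      · exact Subgroup.inv_mem _ hr
      · exact hr

/-- The normal closure of an r.e. family of relators is r.e., uniformly in the parameter. -/
theorem re_normalClosure {ε : Type*} [Primcodable ε] {R : ε → Wd α → Prop}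
    (hR : REPred fun p : ε × Wd α => R p.1 p.2) :
    REPred fun p : ε × Wd α => FreeGroup.mk p.2 ∈ Subgroup.normalClosure (relSet (R p.1)) := by
  have hconj : Primrec (conjWord : List (Wd α × Wd α × Bool) → Wd α) := by
    refine Primrec.list_flatMap Primrec.id ?_
    refine Primrec.list_append.comp (Primrec.list_append.comp (Primrec.fst.comp Primrec.snd) ?_)
      (primrec_invRev.comp (Primrec.fst.comp Primrec.snd))
    exact Primrec.cond (Primrec.snd.comp (Primrec.snd.comp Primrec.snd))
      (Primrec.fst.comp (Primrec.snd.comp Primrec.snd))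
      (primrec_invRev.comp (Primrec.fst.comp (Primrec.snd.comp Primrec.snd)))
  refine (exists_ (p := fun (x : ε × Wd α) (l : List (Wd α × Wd α × Bool)) =>
      (∀ q ∈ l, R x.1 q.2.1) ∧ FreeGroup.mk (conjWord l) = FreeGroup.mk x.2) (and ?_ ?_)).of_eq
    fun p => (mem_normalClosure_iff (R p.1) p.2).symm
  · exact forall_mem (p := fun (x : (ε × Wd α) × List (Wd α × Wd α × Bool)) (q : Wd α × Wd α × Bool) =>
        R x.1.1 q.2.1)
      (comp (α := ((ε × Wd α) × List (Wd α × Wd α × Bool)) × (Wd α × Wd α × Bool))
        (g := fun z => (z.1.1.1, z.2.2.1)) hR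
        ((Computable.fst.comp (Computable.fst.comp Computable.fst)).pair
          (Computable.fst.comp (Computable.snd.comp Computable.snd))))
      (l := fun x : (ε × Wd α) × List (Wd α × Wd α × Bool) => x.2) Computable.snd
  · exact comp (p := fun q : Wd α × Wd α => FreeGroup.mk q.1 = FreeGroup.mk q.2)
      (of_primrec (primrec_mk_eq.comp Primrec.fst Primrec.snd))
      ((hconj.to_comp.comp Computable.snd).pair (Computable.snd.comp Computable.fst))

omit [Primcodable α] [DecidableEq α] in
/-- Triviality of a word in a presented group. -/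
theorem presented_eq_one_iff (R : Wd α → Prop) (w : Wd α) :
    wev (PresentedGroup.of (rels := relSet R)) w = 1 ↔ FreeGroup.mk w ∈ Subgroup.normalClosure (relSet R) := by
  rw [← PresentedGroup.mk_eq_one_iff]
  have : FreeGroup.lift (PresentedGroup.of (rels := relSet R)) = PresentedGroup.mk (relSet R) :=
    FreeGroup.ext_hom _ _ fun a => FreeGroup.lift_apply_of
  rw [wev, this]

theorem re_presented {ε : Type*} [Primcodable ε] {R : ε → Wd α → Prop}
    (hR : REPred fun p : ε × Wd α => R p.1 p.2) :
    REPred fun p : ε × Wd α => wev (PresentedGroup.of (rels := relSet (R p.1))) p.2 = 1 :=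
  (re_normalClosure hR).of_eq fun p => (presented_eq_one_iff (R p.1) p.2).symm

/-- Equality of two words in a presented group. -/
theorem re_presented_eq {ε : Type*} [Primcodable ε] {R : ε → Wd α → Prop}
    (hR : REPred fun p : ε × Wd α => R p.1 p.2) :
    REPred fun p : ε × Wd α × Wd α => wev (PresentedGroup.of (rels := relSet (R p.1))) p.2.1 =
      wev (PresentedGroup.of (rels := relSet (R p.1))) p.2.2 := by
  refine (comp (g := fun p : ε × Wd α × Wd α => (p.1, p.2.1 ++ FreeGroup.invRev p.2.2)) (re_presented hR)
    ((Primrec.fst.pair (Primrec.list_append.comp (Primrec.fst.comp Primrec.snd)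
      (primrec_invRev.comp (Primrec.snd.comp Primrec.snd)))).to_comp)).of_eq fun p => ?_
  rw [wev_append, wev, wev, ← FreeGroup.inv_mk, map_inv, mul_inv_eq_one]
  rfl

end Words

/-- Kleene: a program that halts exactly on the set defined from its own code. -/
theorem exists_fixed (P : ℕ → ℕ → Prop) (hP : REPred fun p : ℕ × ℕ => P p.1 p.2) :
    ∃ e, ∀ m, (Code.eval (Denumerable.ofNat Code e) m).Dom ↔ P e m := by
  have hf : Partrec₂ fun (c : Code) (m : ℕ) =>
      (Part.assert (P (encode c) m) fun _ => Part.some ()).map fun _ => (0 : ℕ) := by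
    refine Partrec.map (Partrec.comp hP ((Computable.encode.comp Computable.fst).pair Computable.snd)) ?_
    exact (Computable.const 0).to₂
  obtain ⟨c, hc⟩ := Code.fixed_point₂ hf
  refine ⟨encode c, fun m => ?_⟩
  rw [Denumerable.ofNat_encode, hc]
  simp [Part.assert, Part.map]

end Vale.P193.RE
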