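import Vale.Agent.P193.Layer.TDefs

/-! P193: elementary lemmas on words, their formal inverses and values. -/

namespace Vale.P193

variable {α β G H : Type*} [Group G] [Group H]

theorem wev_cons (f : α → G) (l : α × Bool) (w : Wd α) :
    wev f (l :: w) = wev f [l] * wev f w := by
  rw [← wev_append, List.singleton_append]

theorem wev_pos (f : α → G) (a : α) : wev f [(a, true)] = f a := by
  simp [wev]

theorem wev_neg (f : α → G) (a : α) : wev f [(a, false)] = (f a)⁻¹ := by
  simp [wev]

theorem wev_map (f : β → G) (g : α → β) (w : Wd α) :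
    wev f (w.map fun l => (g l.1, l.2)) = wev (fun a => f (g a)) w := by
  induction w with
  | nil => simp
  | cons l w ih =>
    rw [List.map_cons, wev_cons, wev_cons (fun a => f (g a)), ih]
    obtain ⟨a, b⟩ := l
    cases b <;> simp [wev_pos, wev_neg]

theorem hom_wev (χ : G →* H) (f : α → G) (w : Wd α) : χ (wev f w) = wev (fun a => χ (f a)) w := by
  induction w with
  | nil => simp
  | cons l w ih =>
    rw [wev_cons, wev_cons (fun a => χ (f a)), map_mul, ih]
    obtain ⟨a, b⟩ := l
    cases b <;> simp [wev_pos, wev_neg]

theorem wev_winv {α : Type} (f : α → G) (w : Wd α) : wev f (winv w) = (wev f w)⁻¹ := by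
  induction w with
  | nil => simp [winv]
  | cons l w ih =>
    have h : winv (l :: w) = winv w ++ [(l.1, !l.2)] := by simp [winv]
    rw [h, wev_append, ih, wev_cons f l w]
    obtain ⟨a, b⟩ := l
    cases b <;> simp [wev_pos, wev_neg]

theorem length_winv {α : Type} (w : Wd α) : (winv w).length = w.length := by
  simp [winv]

theorem wev_weq {α : Type} (f : α → G) (u v : Wd α) : wev f (weq u v) = 1 ↔ wev f u = wev f v := by
  rw [weq, wev_append, wev_winv, mul_inv_eq_one]

theorem wev_flatMap (f : β → G) (g : α × Bool → Wd β) (h : α → G)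
    (hg : ∀ l, wev f (g l) = wev h [l]) (w : Wd α) : wev f (w.flatMap g) = wev h w := by
  induction w with
  | nil => simp
  | cons l w ih => rw [List.flatMap_cons, wev_append, ih, hg, wev_cons h l w]

end Vale.P193
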