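import Mathlib.GroupTheory.FinitelyPresentedGroup
import Mathlib.GroupTheory.Subgroup.Simple
import Mathlib.Computability.RE
import Mathlib.GroupTheory.GroupAction.MultipleTransitivity

/-! P193: statements of the two halves and of the hand-in. -/

namespace Vale.P193

/-- Thm A's output: a finitely presented group with a faithful 2-transitive action with finitely generated
point stabiliser, containing `G`. -/
def NiceEnvelope (G : Type) [Group G] : Prop :=
  ∃ (Λ : Type) (_ : Group Λ) (S : Type) (_ : MulAction Λ S) (_ : Countable S),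
    Group.IsFinitelyPresented Λ ∧ FaithfulSMul Λ S ∧ Infinite S ∧
    (∀ a b a' b' : S, a ≠ b → a' ≠ b' → ∃ g : Λ, g • a = a' ∧ g • b = b') ∧
    (∀ s : S, (MulAction.stabilizer Λ s).FG) ∧
    ∃ i : G →* Λ, Function.Injective i

/-- The conclusion. -/
def SimpleEnvelope (G : Type) [Group G] : Prop :=
  ∃ (Γ : Type) (_ : Group Γ), IsSimpleGroup Γ ∧ Group.IsFinitelyPresented Γ ∧
    ∃ i : G →* Γ, Function.Injective i

/-- Decidable word problem for a generating tuple. -/
def DecidableWP {G : Type} [Group G] {n : ℕ} (f : FreeGroup (Fin n) →* G) : Prop :=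
  ComputablePred fun w : List (Fin n × Bool) => f (FreeGroup.mk w) = 1

end Vale.P193
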