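import Vale.Agent.P193.Layer.ThmA
import Vale.Agent.P193.Layer.SysRE
import Vale.Agent.P193.SV.Main

/-!
P193: the Boone-Higman conjecture.
-/

namespace Vale.P193

noncomputable section

/-- Every finitely generated group with decidable word problem embeds in a finitely presented simple group. -/
theorem simpleEnvelope_of_decidableWP {G : Type} [Group G] {n : ℕ} (f : FreeGroup (Fin n) →* G)
    (hf : Function.Surjective f) (hd : DecidableWP f) : SimpleEnvelope G :=
  simpleEnvelope_of_parts
    (fun gG hgG hG M S => re_sysF M bigL gG (hForm M S bigL) S.root0_comp S.root1_comp hgG hG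
      (fun he hO => re_hForm_negH M S bigL he hO) (fun he hO => re_hForm_notTH M S bigL he hO))
    (fun G _ h => SV.simple_of_nice h) f hf hd

end

end Vale.P193
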