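import Mathlib.GroupTheory.FreeGroup.Basic

/-! P193: words over an alphabet and their values. Every interface uses these two notions. -/

namespace Vale.P193

/-- A word: a list of letters, `true` = the letter, `false` = its inverse (the convention of `FreeGroup.mk`). -/
abbrev Wd (α : Type*) := List (α × Bool)

/-- Value of a word under an assignment of the letters. -/
def wev {α G : Type*} [Group G] (f : α → G) (w : Wd α) : G :=
  FreeGroup.lift f (FreeGroup.mk w)

@[simp] theorem wev_nil {α G : Type*} [Group G] (f : α → G) : wev f [] = 1 := by
  simp [wev, ← FreeGroup.one_eq_mk]

theorem wev_append {α G : Type*} [Group G] (f : α → G) (u v : Wd α) :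
    wev f (u ++ v) = wev f u * wev f v := by
  simp [wev, ← FreeGroup.mul_mk]

end Vale.P193
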